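import Vale.Agent.P181.TW.T3.Bridge
import Vale.Agent.P181.DGx.H831.Ker

set_option autoImplicit false

/-!
# P181, TW, T3: `Stab`, unconditional
-/

namespace Vale.Agent.P181.TW.T3

/-- **(Stab)** -/
theorem stabT : Stab := stabStmt Vale.Agent.P181.DGx.H831.kerStmt

end Vale.Agent.P181.TW.T3
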