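import Vale.Agent.P181.DGx.H831.Mono
import Vale.Agent.P181.DGx.H514.Lit

set_option autoImplicit false

/-!
# P181, TW, T3: stability in the number of the small columns
-/

open MvPolynomial

namespace Vale.Agent.P181.TW.T3

open Vale.Agent.P181.T4 (HW mem_HW)
open Vale.Agent.P181.DG (PKT NT)
open Vale.Agent.P181.DG.H514 (KerT KerStmt)
open Vale.Agent.P181.DGx.H831 (mem_PKT)

/-- If there are fewer cells than small columns, every monomial misses a small column. -/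
theorem le_kerT {m S : ℕ} {σ : Type} [Fintype σ] {d : σ → ℕ} {t : ℕ} {mu : Fin m → ℕ}
    (h : ∑ i, mu i ≤ ∑ j, d j + t) : PKT m S σ d (t + 1) mu ≤ KerT m S σ d t mu := by
  intro f hf
  refine ⟨hf, fun v hv => ?_⟩
  obtain ⟨h0, h1, _, _⟩ := mem_PKT.1 hf
  have h2 := (mem_HW.1 h0).1 v hv
  obtain ⟨h3, _⟩ := h1 v hv
  by_contra hcon
  push Not at hcon
  have h4 : ∑ i, mu i = ∑ j, d j + ∑ j : Fin (t + 1), ∑ i, v (i, Sum.inr j) := by
    rw [← Finset.sum_congr rfl fun i _ => h2 i, Finset.sum_comm, Fintype.sum_sum_type,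
      Finset.sum_congr rfl fun j _ => h3 j]
  have h5 : ∑ _j : Fin (t + 1), 1 ≤ ∑ j : Fin (t + 1), ∑ i, v (i, Sum.inr j) :=
    Finset.sum_le_sum fun j _ => Nat.one_le_iff_ne_zero.2 (hcon j)
  rw [Finset.sum_const, Finset.card_univ, Fintype.card_fin, smul_eq_mul, mul_one] at h5
  omega

/-- **(Stab)** for any family of large columns. -/
theorem stab_pkt (hK : KerStmt) {m S : ℕ} (hS : 1 ≤ S) (σ : Type) [Fintype σ] (d : σ → ℕ) (t : ℕ)
    (mu : Fin m → ℕ) (h : ∑ i, mu i ≤ ∑ j, d j + t) :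
    Module.finrank ℂ (PKT m S σ d (t + 1) mu) ≤ Module.finrank ℂ (PKT m S σ d t mu) := by
  rw [← hK m S σ d t mu hS]
  have : FiniteDimensional ℂ (KerT m S σ d t mu) :=
    Submodule.finiteDimensional_of_le (S₂ := PKT m S σ d (t + 1) mu) fun _ h => h.1
  exact Submodule.finrank_mono (le_kerT h)

/-- **(Stab)** -/
theorem stab (hK : KerStmt) {m S : ℕ} (hS : 1 ≤ S) (mu : Fin m → ℕ) (kap : Multiset ℕ) (t : ℕ)
    (h : ∑ i, mu i ≤ kap.sum + t) : NT m S mu kap (t + 1) ≤ NT m S mu kap t := by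
  refine stab_pkt hK hS _ _ t mu ?_
  have h1 : ∑ j : Fin kap.toList.length, kap.toList.get j = kap.sum := by
    rw [← List.sum_ofFn, List.ofFn_get, Multiset.sum_toList]
  rw [h1]
  exact h

/-- **(T3)** one frozen column of degree `x`. -/
theorem stab_one (hK : KerStmt) {m S : ℕ} (hS : 1 ≤ S) (mu : Fin m → ℕ) (x t : ℕ)
    (h : ∑ i, mu i ≤ x + t) : NT m S mu {x} (t + 1) ≤ NT m S mu {x} t :=
  stab hK hS mu {x} t (by rw [Multiset.sum_singleton]; exact h)

/-- With equality, by `MonoT`. -/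
theorem stab_eq (hK : KerStmt) {m S : ℕ} (hS : 1 ≤ S) (mu : Fin m → ℕ) (kap : Multiset ℕ) (t : ℕ)
    (h : ∑ i, mu i ≤ kap.sum + t) : NT m S mu kap (t + 1) = NT m S mu kap t :=
  le_antisymm (stab hK hS mu kap t h) (Vale.Agent.P181.DGx.H831.monoT m S mu kap t hS)

end Vale.Agent.P181.TW.T3
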