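import Vale.Agent.P181.TW.Defs
import Vale.Agent.P181.TW.T3.Stab

set_option autoImplicit false

/-!
# P181, TW, T3: `NX m x t mu = NT m (∑ mu + 1) mu {x} t`, and `Mono`, `Stab`
-/

open MvPolynomial

namespace Vale.Agent.P181.TW.T3

open Vale.Agent.P181.T4 (HW mem_HW)
open Vale.Agent.P181.DG (PKT NT)
open Vale.Agent.P181.DG.H514 (KerT KerStmt)
open Vale.Agent.P181.DGx.H831 (mem_PKT pderiv_rc mono_pkt)
open Vale.Agent.P181.SZT0 (rc rc_inj inj_pr coeff_rc rc_mem_HW exists_equiv)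

/-- The columns. -/
def ee (t : ℕ) : Option (Fin t) ≃ Unit ⊕ Fin t :=
  (Equiv.optionEquivSumPUnit (Fin t)).trans (Equiv.sumComm _ _)

@[simp] lemma ee_none (t : ℕ) : ee t none = Sum.inl () := rfl

@[simp] lemma ee_some (t : ℕ) (j : Fin t) : ee t (some j) = Sum.inr j := rfl

variable {m x t : ℕ} {mu : Fin m → ℕ}

lemma deg_lt {τ : Type} [Fintype τ] {f : MvPolynomial (Fin m × τ) ℂ} (hf : f ∈ HW m τ mu)
    {v : Fin m × τ →₀ ℕ} (hv : coeff v f ≠ 0) (j : τ) :
    ∑ i, v (i, j) < ∑ i, mu i + 1 := by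
  have h2 := (mem_HW.1 hf).1 v hv
  have h3 : ∑ i, v (i, j) ≤ ∑ i, ∑ l, v (i, l) :=
    Finset.sum_le_sum fun i _ => Finset.single_le_sum (f := fun l => v (i, l))
      (fun _ _ => Nat.zero_le _) (Finset.mem_univ j)
  have h4 : ∑ i, ∑ l, v (i, l) = ∑ i, mu i := Finset.sum_congr rfl fun i _ => h2 i
  omega

lemma rc_mem_iff {g : MvPolynomial (Fin m × Option (Fin t)) ℂ} :
    rc m (ee t) g ∈ PKT m (∑ i, mu i + 1) Unit (fun _ => x) t mu ↔ g ∈ PX m x t mu := by
  have hι : Function.Injective (ee t) := (ee t).injective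
  have hs : ∀ (e : Equiv.Perm Unit) (s : Equiv.Perm (Fin t)),
      rename (fun p : Fin m × (Unit ⊕ Fin t) => (p.1, Sum.map e s p.2)) (rc m (ee t) g) =
        rc m (ee t) (rename (fun p : Fin m × Option (Fin t) => (p.1, p.2.map s)) g) := by
    intro e s
    rw [rc, rename_rename, rename_rename]
    congr 1
    congr 1
    funext p
    obtain ⟨i, j⟩ := p
    rcases j with _ | j
    · rfl
    · rfl
  have hd : ∀ i, ∑ j : Fin t, pderiv (i, (Sum.inr j : Unit ⊕ Fin t)) (rc m (ee t) g) =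
      rc m (ee t) (∑ j : Fin t, pderiv (i, some j) g) := by
    intro i
    rw [map_sum]
    exact Finset.sum_congr rfl fun j _ => pderiv_rc hι i (some j) g
  rw [mem_PKT, mem_PX, rc_mem_HW hι]
  constructor
  · rintro ⟨h0, h1, h2, h3⟩
    refine ⟨h0, fun v hv => ?_, fun e => ?_, fun i => ?_⟩
    · have hc : coeff (Finsupp.mapDomain (fun p : Fin m × Option (Fin t) => (p.1, ee t p.2)) v)
          (rc m (ee t) g) = coeff v g := coeff_rename_mapDomain _ (inj_pr hι) g v
      have h4 := (h1 _ (by rw [hc]; exact hv)).1 ()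
      rw [← h4]
      exact Finset.sum_congr rfl fun i _ => (Finsupp.mapDomain_apply (inj_pr hι) v (i, none)).symm
    · apply rc_inj hι
      rw [← hs 1 e]
      exact h2 1 e fun _ => rfl
    · apply rc_inj hι
      rw [← hd i, map_zero]
      exact h3 i
  · rintro ⟨h0, h1, h2, h3⟩
    refine ⟨h0, fun v hv => ⟨fun j => ?_, fun j => ?_⟩, fun e s _ => ?_, fun i => ?_⟩
    · obtain ⟨u, hu, h4, _⟩ := coeff_rc hι hv
      rw [← h1 u hu]
      exact Finset.sum_congr rfl fun i _ => h4 i none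
    · exact deg_lt ((rc_mem_HW hι).2 h0) hv _
    · rw [hs e s, h2 s]
    · rw [hd i, h3 i, map_zero]

/-- The bridge to the letters of DG. -/
theorem finrank_eq (m x t : ℕ) (mu : Fin m → ℕ) :
    NX m x t mu = Module.finrank ℂ (PKT m (∑ i, mu i + 1) Unit (fun _ => x) t mu) := by
  have hb : Function.Bijective (fun p : Fin m × Option (Fin t) => (p.1, ee t p.2)) :=
    (Equiv.prodCongr (Equiv.refl _) (ee t)).bijective
  let E : MvPolynomial (Fin m × Option (Fin t)) ℂ ≃ₗ[ℂ] MvPolynomial (Fin m × (Unit ⊕ Fin t)) ℂ :=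
    (renameEquiv ℂ (Equiv.prodCongr (Equiv.refl (Fin m)) (ee t))).toLinearEquiv
  have hE : ∀ g, E g = rc m (ee t) g := fun g => rfl
  have h1 : (PX m x t mu).map (E : MvPolynomial (Fin m × Option (Fin t)) ℂ →ₗ[ℂ] _) =
      PKT m (∑ i, mu i + 1) Unit (fun _ => x) t mu := by
    ext f
    rw [Submodule.mem_map]
    constructor
    · rintro ⟨g, hg, rfl⟩
      exact rc_mem_iff.2 hg
    · intro hf
      refine ⟨E.symm f, ?_, E.apply_symm_apply f⟩
      rw [← rc_mem_iff, ← hE, E.apply_symm_apply]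
      exact hf
  rw [NX, ← h1]
  exact (LinearEquiv.finrank_map_eq E _).symm

/-- The bridge to `NT`. -/
theorem NX_eq (m x t : ℕ) (mu : Fin m → ℕ) :
    NX m x t mu = NT m (∑ i, mu i + 1) mu {x} t := by
  rw [finrank_eq, Vale.Agent.P181.DGx.H831.transT m _ Unit (fun _ => x) t mu]
  congr 1

/-- **(Mono)** -/
theorem mono : Mono := by
  intro m x t mu
  rw [finrank_eq, finrank_eq]
  exact mono_pkt (by omega) Unit _ t mu

/-- **(Stab)** from `KerStmt`. -/
theorem stabStmt (hK : KerStmt) : Stab := by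
  intro m x t mu h
  rw [finrank_eq, finrank_eq]
  refine stab_pkt hK (by omega) Unit _ t mu ?_
  simpa using h

end Vale.Agent.P181.TW.T3
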